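import Crest.Agent.X212.Lix26.Defs
import Mathlib.Topology.Homotopy.Lifting

/-!
# Row 212, RF-LIX (helper19): **LEAF DECK**, the deck group of the covering of the lens space
-/

set_option autoImplicit false
set_option linter.unusedSectionVars false
noncomputable section
open scoped Manifold ContDiff Topology
open Set Function Filter Metric Topology
open Crest.Agent.R208.F (Ext)

namespace Crest.Agent.X212.Lxd19
open Lns95
open M (Mf Band)
open Glue52 (dir norm_mul_dir)
open Rod53 (S3' L4 rot)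

/-! ### topology -/

theorem lh_of_jac {E H M F : Type} [NormedAddCommGroup E] [NormedSpace ℝ E] [FiniteDimensional ℝ E]
    [TopologicalSpace H] {I : ModelWithCorners ℝ E H} [I.Boundaryless] [TopologicalSpace M]
    [ChartedSpace H M] [NormedAddCommGroup F] [NormedSpace ℝ F] [FiniteDimensional ℝ F] {f : M → F}
    {x : M} (hf : ContMDiffAt I 𝓘(ℝ, F) ∞ f x) (h : Int54.jac (Dr59.mf I 𝓘(ℝ, F) f x) ≠ 0) :
    ∃ e : OpenPartialHomeomorph M F, x ∈ e.source ∧ EqOn f e e.source := by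
  have r : Module.finrank ℝ F = Module.finrank ℝ E := by_contra fun r => h (dif_neg r)
  rw [Int54.jac_eq r] at h
  let A := ((_ : E →L[ℝ] E).toContinuousLinearEquivOfDetNeZero h).trans (Int54.eqv r).symm
  have := FiniteDimensional.complete ℝ E
  have c : ContDiffAt ℝ ∞ (f ∘ (extChartAt I x).symm) (extChartAt I x x) := by
    simpa [I.range_eq_univ, contDiffWithinAt_univ] using (contMDiffAt_iff.1 hf).2
  have d : HasFDerivAt (f ∘ (extChartAt I x).symm) (A : E →L[ℝ] F) (extChartAt I x x) := by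
    have := (hf.mdifferentiableAt (by simp)).hasMFDerivAt.2
    rw [show (A : E →L[ℝ] F) = Dr59.mf I 𝓘(ℝ, F) f x from ContinuousLinearMap.ext fun v =>
      (Int54.eqv r).symm_apply_apply _]
    rw [I.range_eq_univ] at this
    exact hasFDerivWithinAt_univ.1 this
  refine ⟨(chartAt H x ≫ₕ I.toHomeomorph.toOpenPartialHomeomorph) ≫ₕ c.toOpenPartialHomeomorph _ d (by simp),
    ⟨⟨mem_chart_source _ _, trivial⟩, c.mem_toOpenPartialHomeomorph_source d (by simp)⟩, fun y hy => ?_⟩
  exact congrArg f ((extChartAt I x).left_inv (by simpa using hy.1.1)).symm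

/-- a local homeomorphism is a covering over a set with compact preimage -/
theorem cov_of {X Z : Type} [TopologicalSpace X] [T2Space X] [TopologicalSpace Z] [T2Space Z]
    {f : X → Z} (h : IsLocalHomeomorph f) {T : Set Z} (k : IsCompact (f ⁻¹' T)) :
    IsCoveringMap (T.restrictPreimage f) := by
  have := isCompact_iff_compactSpace.1 k
  refine isLocalHomeomorph_iff_isCoveringMap.1 (isLocalHomeomorph_iff_isOpenEmbedding_restrict.2 fun x => ?_)
  obtain ⟨e, hx, rfl⟩ := h x
  have o : IsOpen (Subtype.val ⁻¹' e.source : Set (e ⁻¹' T)) := e.open_source.preimage continuous_subtype_val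
  exact ⟨_, o.mem_nhds hx, .of_continuous_injective_isOpenMap
    (h.continuous.restrictPreimage.comp continuous_subtype_val)
    (fun a b c => Subtype.ext (Subtype.ext (e.injOn a.2 b.2 (congrArg Subtype.val c))))
    ((h.isOpenMap.restrictPreimage T).domRestrict o)⟩

/-! ### the sphere -/

/-- the circle action -/
def ro (z : Circle) (y : S3') : S3' := ⟨rot z z y, by simp⟩

theorem L4_ro (z : Circle) (y : S3') : L4 (ro z y) = (z : ℂ) • L4 y := Rod53.L4_rot z z y

theorem cont_ro : Continuous (uncurry ro) :=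
  (L4.symm.continuous.comp (((continuous_subtype_val.comp continuous_fst).smul
    (L4.continuous.comp (continuous_subtype_val.comp continuous_snd)) :
      Continuous fun p : Circle × S3' => (p.1 : ℂ) • L4 p.2))).subtype_mk _

theorem nsq (b : Bool) (y : S3') : ‖(Th b y).1‖ ^ 2 + ‖(Th b y).2‖ ^ 2 = 1 := by
  have := Rod53.norm_L4 y
  rw [norm_eq_of_mem_sphere, one_pow] at this
  cases b
  exacts [this, (add_comm _ _).trans this]

theorem alg {n : ℕ} {p q : ℂ × ℂ} (hp : ‖p.1‖ ^ 2 + ‖p.2‖ ^ 2 = 1) (hq : ‖q.1‖ ^ 2 + ‖q.2‖ ^ 2 = 1)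
    (h1 : p.1 * ((dir p.2)⁻¹ : Circle) = q.1 * ((dir q.2)⁻¹ : Circle)) (h2 : dir p.2 ^ n = dir q.2 ^ n) :
    ∃ ζ : ℂ, ζ ^ n = 1 ∧ q = ζ • p := by
  have a : ‖q.1‖ = ‖p.1‖ := by simpa using congrArg norm h1.symm
  have b : ‖q.2‖ = ‖p.2‖ := (sq_eq_sq₀ (norm_nonneg _) (norm_nonneg _)).1 (by rw [a] at hq; linarith)
  have c := Circle.coe_ne_zero (dir p.2)
  have d := Circle.coe_ne_zero (dir q.2)
  refine ⟨(dir q.2 / dir p.2 : Circle), by rw [← Circle.coe_pow, div_pow, h2, div_self', Circle.coe_one],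
    Prod.ext ?_ ?_⟩
  · simp only [Circle.coe_inv, Circle.coe_div, Prod.smul_fst, smul_eq_mul] at h1 ⊢
    field_simp at h1 ⊢
    linear_combination -h1
  · have e := norm_mul_dir p.2
    have e' := norm_mul_dir q.2
    rw [b] at e'
    simp only [Circle.coe_div, Prod.smul_snd, smul_eq_mul]
    field_simp
    linear_combination (dir q.2 : ℂ) * e - (dir p.2 : ℂ) * e'

/-- the orbits -/
def Or (n : ℕ) (y y' : S3') : Prop := ∃ ζ : ℂ, ζ ^ n = 1 ∧ L4 y' = ζ • L4 y

theorem exists_small {n : ℕ} (hn : n ≠ 0) (y₀ : S3') :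
    ∃ U, IsOpen U ∧ y₀ ∈ U ∧ ∀ y ∈ U, ∀ y' ∈ U, Or n y y' → y = y' := by
  have c : IsClosed (⋃ ζ ∈ ({ζ : ℂ | ζ ^ n = 1} \ {1}), {p : S3' × S3' | L4 p.2 = ζ • L4 p.1}) :=
    (((Polynomial.nthRootsFinset n (1 : ℂ)).finite_toSet.subset fun _ h =>
      (Polynomial.mem_nthRootsFinset (Nat.pos_of_ne_zero hn) 1).2 h).sdiff).isClosed_biUnion
      fun _ _ => isClosed_eq (by fun_prop) (by fun_prop)
  obtain ⟨U, h1, h2, h3⟩ := exists_nhds_square (x := y₀) (c.isOpen_compl.mem_nhds fun h => by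
    obtain ⟨ζ, k, e⟩ := mem_iUnion₂.1 h
    have e' : (1 - ζ) • L4 y₀ = 0 := by rw [sub_smul, one_smul]; exact sub_eq_zero.2 e
    exact (smul_eq_zero.1 e').elim (fun e => k.2 (sub_eq_zero.1 e).symm)
      (by simpa using Rod53.L4_ne one_pos y₀))
  refine ⟨U, h1, h2, fun y hy y' hy' ⟨ζ, k, e⟩ => ?_⟩
  obtain rfl : ζ = 1 := by_contra fun m => h3 (mk_mem_prod hy hy') (mem_biUnion ⟨k, m⟩ e)
  exact Subtype.ext (L4.injective (e.trans (one_smul _ _))).symm

/-! ### the lens band -/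

variable {X : Mf 4} [CompactSpace X.M] {o : X.M → Ext X.E} {n : ℕ} {B : Band X} {κ : Type}
  [Fintype κ] {e : κ → Met55.VF B.Y.I B.Y.M} (L : LB X o n B e)

theorem or_of {y y' : S3'} (h : L.c y = L.c y') : Or n y y' := by
  have s : (-1 : ℝ) ∈ Ioo (-3 : ℝ) 0 := by norm_num
  have E := fun b y => L.band.eq b y _ s
  have k : ∀ b, (Th b y).2 ≠ 0 → (Th b y').2 ≠ 0 → Or n y y' := fun b p q => by
    obtain ⟨-, a1, a2⟩ := E b y p
    obtain ⟨-, b1, b2⟩ := E b y' q
    obtain ⟨ζ, c, d⟩ := alg (n := n) (nsq b y) (nsq b y') (by rw [← a1, ← b1, h]) (Subtype.ext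
      (mul_left_cancel₀ (Complex.ofReal_ne_zero.2 (Real.sqrt_pos.2 (L.band.pos _)).ne')
        (a2.symm.trans (h ▸ b2))))
    cases b
    exacts [⟨ζ, c, d⟩, ⟨ζ, c, Prod.swap_injective d⟩]
  have m : ∀ y y', L.c y = L.c y' → (Th false y).2 = 0 → (Th true y').2 ≠ 0 := fun y y' h p q => by
    have p' : (Th true y).2 ≠ 0 := fun z => by simpa [p, show (Th false y).1 = 0 from z] using nsq false y
    have q' : (Th false y').2 ≠ 0 := fun z => by
      simpa [z, show (Th false y').1 = 0 from q] using nsq false y'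
    exact L.D.ne true _ ⟨h ▸ (E false y' q').1, (E true y p').1⟩
      ((E true y p').2.1.trans (mul_eq_zero_of_left p _))
  by_cases p : (Th false y).2 = 0
  · exact k true (m y y rfl p) (m y y' h p)
  by_cases q : (Th false y').2 = 0
  exacts [k true (m y' y h.symm q) (m y' y' rfl q), k false p q]

theorem cpt {s : ℝ} (hs : s < 0) : IsCompact (L.D.O false ∩
    (fun x => (L.D.u false x, L.D.w false x)) ⁻¹' ({0} ×ˢ closedBall 0 √(L.g s))) := by
  have c := L.D.ch false
  have mo : StrictMono L.g := strictMono_of_deriv_pos fun x => (L.band.up x trivial).2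
  let C := (B.wall.sd true ∪ B.j '' (univ ×ˢ Ioi s) ∪ L.D.O true)ᶜ
  have hC : IsClosed C := (((B.wall.op_sd true).union (B.oe.isOpenEmbedding.isOpenMap _
    (isOpen_univ.prod isOpen_Ioi))).union (L.D.ch true).op).isClosed_compl
  have sub : C ⊆ L.D.O false := fun x hx => by
    have : x ∈ B.wall.sd false := by_contra fun n => by
      obtain ⟨y, rfl⟩ := B.mem_core.1 (show x ∈ B.wall.core from fun b => by
        cases b
        exacts [n, fun k => hx (.inl (.inl k))])
      exact hx (.inl (.inr ⟨(y, 0), ⟨trivial, hs⟩, rfl⟩))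
    obtain ⟨_ | _, k⟩ := (L.D.cov x).1 this
    exacts [k, (hx (.inr k)).elim]
  have := (ContinuousOn.preimage_isClosed_of_isClosed (f := fun x => (L.D.u false x, L.D.w false x))
    (fun x hx => ((c.su x (sub hx)).continuousAt.prodMk (c.sw x (sub hx)).continuousAt).continuousWithinAt)
    hC (t := {0} ×ˢ closedBall 0 √(L.g s)) (isClosed_singleton.prod isClosed_closedBall)).isCompact
  refine (Subset.antisymm (inter_subset_inter_left _ sub) fun x hx => ⟨?_, hx.2⟩).subst this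
  rintro ((k | ⟨q, k, rfl⟩) | k)
  · exact B.wall.not_mem_sd (L.D.sub false hx.1) k
  · exact (mo k.2).not_ge ((L.band.hi false q hx.1).trans ((Real.le_sqrt (norm_nonneg _)
      (L.band.pos _).le).1 (mem_closedBall_zero_iff.1 hx.2.2)))
  · exact L.D.ne false x ⟨hx.1, k⟩ hx.2.1

theorem exists_fix {ζ : Circle} (hζ : ζ ^ n = 1) : ∃ y, L.c (ro ζ y) = L.c y := by
  have c := L.D.ch false
  have s : (-1 : ℝ) ∈ Ioo (-3 : ℝ) 0 := by norm_num
  let Φ := fun x => (L.D.u false x, L.D.w false x)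
  have h1 : IsLocalHomeomorphOn Φ (L.D.O false) := .mk _ _ fun x hx =>
    lh_of_jac ((c.su x hx).prodMk_space (c.sw x hx)) fun z => (c.pos x hx).ne' (by
      rw [Int54.tp_pm (X.dim.symm ▸ by simp), z, zero_mul, zero_mul])
  have h2 : IsLocalHomeomorph ((L.D.O false).domRestrict Φ) :=
    isLocalHomeomorph_iff_isLocalHomeomorphOn_univ.2 (h1.comp
      c.op.isOpenEmbedding_subtypeVal.isLocalHomeomorph.isLocalHomeomorphOn fun x _ => x.2)
  let r := √(L.g (-1))
  have hr : 0 ≤ r := Real.sqrt_nonneg _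
  have cv := cov_of h2 (T := {0} ×ˢ closedBall 0 r) (by
    rw [Subtype.isCompact_iff]
    exact (Subtype.image_preimage_coe _ _).symm.subst (cpt L s.2))
  let y₀ : S3' := ⟨L4.symm (0, 1), by
    have := Rod53.norm_L4 (L4.symm (0, 1))
    rw [L4.apply_symm_apply] at this
    exact mem_sphere_zero_iff_norm.2 ((pow_eq_one_iff_of_nonneg (norm_nonneg _) two_ne_zero).1
      (this.symm.trans (by simp)))⟩
  have t : ∀ z, Th false (ro z y₀) = (0, (z : ℂ)) := fun z =>
    (L4_ro z y₀).trans (by simp [y₀])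
  have E : ∀ z, B.j (L.c (ro z y₀), -1) ∈ L.D.O false ∧
      Φ (B.j (L.c (ro z y₀), -1)) = (0, (r : ℂ) * (z ^ n : Circle)) := fun z => by
      obtain ⟨a, b, d⟩ := L.band.eq false (ro z y₀) _ s (by rw [t]; exact z.coe_ne_zero)
      rw [t] at b d
      refine ⟨a, Prod.ext (b.trans (zero_mul _)) (d.trans ?_)⟩
      rw [show dir (z : ℂ) = z by simpa using Glue52.dir_mul one_pos z]
  let f : C(ℂ, ({0} ×ˢ closedBall 0 r : Set (ℂ × ℂ))) := ⟨fun z => ⟨(0, (r : ℂ) * (z / (max 1 ‖z‖ : ℝ))), rfl, by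
    have m : (0 : ℝ) < max 1 ‖z‖ := one_pos.trans_le (le_max_left _ _)
    rw [mem_closedBall_zero_iff, norm_mul, norm_div, Complex.norm_of_nonneg hr, Complex.norm_of_nonneg m.le]
    exact mul_le_of_le_one_right hr ((div_le_one m).2 (le_max_right _ _))⟩,
    (continuous_const.prodMk (continuous_const.mul (continuous_id.div (by fun_prop) fun z =>
      Complex.ofReal_ne_zero.2 (one_pos.trans_le (le_max_left _ _)).ne'))).subtype_mk _⟩
  have fz : ∀ z : Circle, (f z).1 = (0, (r : ℂ) * (z : ℂ)) := fun z => by simp [f]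
  let g : Circle → (L.D.O false).domRestrict Φ ⁻¹' ({0} ×ˢ closedBall 0 r) := fun z =>
    ⟨⟨_, (E z).1⟩, ((E z).2.trans (fz _).symm).symm.subst (f (z ^ n : Circle)).2⟩
  have pg : ∀ z, ({0} ×ˢ closedBall 0 r).restrictPreimage _ (g z) = f (z ^ n : Circle) := fun z =>
    Subtype.ext ((E z).2.trans (fz _).symm)
  obtain ⟨F, ⟨F1, F2⟩, -⟩ := cv.existsUnique_continuousMap_lifts f (1 ^ n : Circle) (g 1) (pg 1)
  have q := cv.eq_of_comp_eq (g₁ := g) (g₂ := fun z => F (z ^ n : Circle))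
    (((B.oe.continuous.comp ((L.ld.contMDiff.continuous.comp (cont_ro.comp
      (continuous_id.prodMk continuous_const))).prodMk continuous_const)).subtype_mk _).subtype_mk _)
    (F.2.comp (continuous_subtype_val.comp (continuous_pow n)))
    (funext fun z => (pg z).trans (congrFun F2 _).symm) 1 F1.symm
  have q' : g ζ = g 1 := by rw [q]; simp only [hζ, one_pow]
  refine ⟨y₀, (congrArg Prod.fst (B.oe.isOpenEmbedding.injective (congrArg (·.1.1) q'))).trans ?_⟩
  exact congrArg L.c (Subtype.ext (L4.injective ((L4_ro 1 y₀).trans (one_smul _ _))))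

theorem c_ro {ζ : Circle} (hζ : ζ ^ n = 1) (y : S3') : L.c (ro ζ y) = L.c y := by
  have : PreconnectedSpace S3' := Subtype.preconnectedSpace (isPreconnected_sphere (by
    rw [← Module.finrank_eq_rank]; simp) _ _)
  have cc := L.ld.contMDiff.continuous
  have cr : Continuous fun y => L.c (ro ζ y) := cc.comp (cont_ro.comp (continuous_const.prodMk continuous_id))
  refine (IsClopen.eq_univ (s := {y | L.c (ro ζ y) = L.c y}) ⟨isClosed_eq cr cc,
    isOpen_iff_mem_nhds.2 fun y₀ h => ?_⟩ (exists_fix L hζ)).ge (mem_univ y)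
  obtain ⟨U, h1, h2, h3⟩ := exists_small L.n0 y₀
  filter_upwards [h1.mem_nhds h2, ((L.ld.isOpenMap U h1).preimage cr).mem_nhds ⟨y₀, h2, h.symm⟩]
    with y hy ⟨x, hx, k⟩
  obtain ⟨ξ, a, b⟩ := or_of L k.symm
  rw [h3 y hy x hx ⟨ξ * ζ, by rw [mul_pow, a, ← Circle.coe_pow, hζ, Circle.coe_one, one_mul],
    by rw [b, L4_ro, mul_smul]⟩] at k ⊢
  exact k.symm

/-- **LEAF DECK** -/
theorem deck : Lix26.DeckStmt := fun _ _ _ n _ _ _ _ L y y' => ⟨or_of L, fun ⟨ζ, a, b⟩ => by
  let z : Circle := ⟨ζ, mem_sphere_zero_iff_norm.2 (Complex.norm_eq_one_of_pow_eq_one a L.n0)⟩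
  rw [show y' = ro z y from Subtype.ext (L4.injective (b.trans (L4_ro z y).symm)),
    c_ro L (Circle.ext ((Circle.coe_pow _ _).trans a))]⟩

end Crest.Agent.X212.Lxd19
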