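import Crest.Agent.X212.Lix26.Defs
import Crest.Agent.X212.Rinv39.Cj
import Crest.Agent.X212.Met55.Mix

/-!
# Row 212, LIX-BRIDGE (helper19): square integrable solutions bound the index from below
-/

set_option autoImplicit false
set_option linter.unusedSectionVars false
noncomputable section
open scoped Manifold ContDiff Topology InnerProductSpace
open MeasureTheory Set Function Filter

namespace Crest.Agent.X212.Lxd19
open An An.Pre Sob92 Ell97 Nk89 Map77 Wz78

section ell
variable {E : Type} [NormedAddCommGroup E] [NormedSpace ℝ E] [FiniteDimensional ℝ E]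
  [MeasurableSpace E] [BorelSpace E]
  {HM : Type} [TopologicalSpace HM] {I : ModelWithCorners ℝ E HM} [I.Boundaryless]
  {M : Type} [TopologicalSpace M] [ChartedSpace HM M] [IsManifold I ∞ M]
  [MeasurableSpace M] {ι : Type} [Fintype ι]
  {V W : Type} [NormedAddCommGroup V] [InnerProductSpace ℝ V] [FiniteDimensional ℝ V]
  [NormedAddCommGroup W] [InnerProductSpace ℝ W] [FiniteDimensional ℝ W]
  [T2Space M] [BorelSpace M] [SecondCountableTopology M]
  {F : Fr I M ι} {A : Op M ι V W} {C C' : ℕ → ℝ}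

theorem memLp_wt {G : Fr I M ι} {ψ : M → ℝ} (w : Wt G F ψ) {u : M → V} (hu : Sm I u)
    (h : Integrable (fun x => Real.exp (2 * ψ x) * ‖u x‖ ^ 2) G.μ) : MemLp u 2 F.μ := by
  rw [memLp_two_iff_integrable_sq_norm hu.continuous.aestronglyMeasurable, w.μ, wm,
    integrable_withDensity_iff_integrable_smul' (meas_w w.sm.continuous)
      (.of_forall fun _ => ENNReal.ofReal_lt_top)]
  simpa only [ENNReal.toReal_ofReal (Real.exp_pos _).le, smul_eq_mul] using h

variable (hF : F.Tame C) (hA : A.Good F C') (hc : A.Cliff F)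
include hF hA hc

/-- square integrable solutions lie in the kernel (level `1`: proof of `Gnk31.ker_of`) -/
theorem ker_of {u : M → V} (hu : Sm I u) (hp : ∀ y, A.p y (u y) = u y)
    (hL : MemLp u 2 F.μ) (h : A.app F u = 0) (k : ℕ) :
    ∃ x : F.H (k + 1) A.p, Is F.toPre (k + 1) A.p x u ∧ A.H F k x = 0 := by
  have := FiniteDimensional.complete ℝ V
  obtain ⟨y, hy⟩ := exists_Is (k := 0) (Exh.of_tame hF) hu hL hp
  obtain ⟨_, hA'⟩ := good_adj hF hA
  obtain ⟨x, h1, h2⟩ := (par hF hA hc).swap.weak_ker (y := y) fun w => by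
    change ⟪(A.adj F).H F 0 w, y⟫_ℝ = 0
    induction w using H_ind with
    | hP => exact isClosed_eq (by fun_prop) (by fun_prop)
    | h s =>
      obtain ⟨χ, s2, c2, -, -, e2⟩ := Met55.exists_cut (I := I) s.2.2.1.isCompact isOpen_univ
        (subset_univ _)
      have k := adj_ip hA ⟨fun y => χ y • u y, s2.smul hu, c2.smul_right, fun y => by
        rw [map_smul, hp]⟩ (toT _ s)
      refine (congrArg (⟪·, y⟫_ℝ) (H_toH hA' 0 s)).trans ?_
      rw [real_inner_comm, ← incl_self y]
      refine (hy.inner_toH _).trans ?_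
      refine (integral_congr_ae (.of_forall fun z => ?_)).trans (k.symm.trans
        (integral_eq_zero_of_ae (.of_forall fun z => ?_)))
      · by_cases hz : z ∈ tsupport s.1
        · simp [(e2 z hz).self_of_nhds, toT, tst]
        · have : (A.adj F).app F s.1 z = 0 :=
            image_eq_zero_of_notMem_tsupport fun k => hz (tsupport_op _ _ _ k)
          simp [toT, tst, this]
      · by_cases hz : z ∈ tsupport s.1
        · simp [app_smul s2 hu, h, sy,
            fun a => show F.D a χ z = 0 from (dv_congr (e2 z hz)).trans (congrFun (dv_const 1) z)]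
        · simp [toT, tst, image_eq_zero_of_notMem_tsupport hz]
  obtain ⟨x', h3, h4⟩ := reg_up hF hA hc.1 (Nat.zero_le k) (x := x) (w := 0)
    ((show A.H F 0 x = 0 from h2).trans (map_zero _).symm)
  refine ⟨x', Is.of_incl (by omega : 0 + 1 ≤ k + 1) ?_, h4⟩
  rw [h3]
  exact Is.of_incl zero_le_one (by rw [show F.incl 1 0 A.p x = y from h1]; exact hy)

/-- independent square integrable solutions of an onto operator -/
theorem le_of_ker {k n : ℕ} {d : ℤ} (H : Fred93.Fr (A.H F k) d) (hs : Surjective (A.H F k))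
    {u : Fin n → M → V} (li : LinearIndependent ℝ u) (hu : ∀ i, Sm I (u i))
    (hp : ∀ i y, A.p y (u i y) = u i y) (hL : ∀ i, MemLp (u i) 2 F.μ)
    (h : ∀ i, A.app F (u i) = 0) : (n : ℤ) ≤ d := by
  have := FiniteDimensional.complete ℝ V
  have := FiniteDimensional.complete ℝ W
  choose x h1 h2 using fun i => ker_of hF hA hc (hu i) (hp i) (hL i) (h i) k
  have := H.1.finite_ker
  have l : LinearIndependent ℝ fun i => (⟨x i, h2 i⟩ : (A.H F k).ker) := by
    rw [Fintype.linearIndependent_iff] at li ⊢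
    intro g hg
    have e : ∑ i, g i • x i = 0 := by simpa using congrArg Subtype.val hg
    have s : ∀ t : Finset (Fin n), Is F.toPre (k + 1) A.p (∑ i ∈ t, g i • x i) (∑ i ∈ t, g i • u i) :=
      fun t => by
        induction t using Finset.cons_induction with
        | empty => exact Is.zero
        | cons a t ha ih => simp only [Finset.sum_cons]; exact ((h1 a).smul _).add ih
    refine li g (Rinv39.ae_cont (F := F) ?_ continuous_const ((s _).symm.trans (e ▸ Is.zero)))
    rw [show ∑ i, g i • u i = fun y => ∑ i, g i • u i y from funext fun y => by simp]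
    exact continuous_finsetSum _ fun i _ => (hu i).continuous.const_smul _
  rw [← H.finrank_ker hs]
  simpa using l.fintype_card_le_finrank

end ell

section defs
open Nd18 Qab60 Lix26
open M (Mf)
variable {E : Type} [NormedAddCommGroup E] [NormedSpace ℝ E] [FiniteDimensional ℝ E]
  [MeasurableSpace E] [BorelSpace E]
  {HM : Type} [TopologicalSpace HM] {I : ModelWithCorners ℝ E HM} [I.Boundaryless]
  {M : Type} [TopologicalSpace M] [ChartedSpace HM M] [IsManifold I ∞ M] [T2Space M]
  [MeasurableSpace M] [BorelSpace M] [SecondCountableTopology M]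

/-- `n` independent decaying solutions of the linearised equations over `Ω` -/
def KW {ι lam : Type} [Fintype ι] [Fintype lam] {r : ℕ} (B : Base M ι lam) (G : Geo I M ι lam)
    (Ω : Set M) (c : Cfg M ι lam r) (ψ : M → ℝ) (G' : Fr I M ι) (n : ℕ) : Prop :=
  ∃ u : Fin n → M → Cf ι (Fin c.m.N), LinearIndependent ℝ u ∧ ∀ i, Sm I (u i) ∧
    Integrable (fun x => Real.exp (2 * ψ x) * ‖u i x‖ ^ 2) G.F.μ ∧
    (∀ x, (ind (bdOf B c.m) Ω ∅).pC x (u i x) = u i x) ∧
    ((ind (bdOf B c.m) Ω ∅).full G' (base c.W 0)).app G' (u i) = 0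

variable {Y : Mf 3} [CompactSpace Y.M] {κ : Type} [Fintype κ] {lam : Type} [Fintype lam]
  [DecidableEq lam] (D : YD Y.I Y.M κ (lam ⊕ lam)) (I M)

/-- **LEAF KER**: two decaying solutions at the level `1 / 4` -/
def KerStmt : Prop := ∀ (B : Base M (Option κ) (lam ⊕ lam)) (G : Geo I M (Option κ) (lam ⊕ lam))
  (K : Nk D B G) (Ω : Set M) (d : Mdl K Ω) (c : Cfg M (Option κ) (lam ⊕ lam) 0) (ξ : M → c.m.A)
  (δ : ℝ) (ψ : M → ℝ) (G' : Fr I M (Option κ)), d.OK → K.p = some 0 → K.q = none →
  Ab B G Ω c ξ → (∀ x ∈ Ω, c.m.p2 B x (c.m.Fg G.F c.W x) = 0) →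
  IntegrableOn (c.m.kd B G.F c.W) Ω G.F.μ → ∫ x in Ω, c.m.kd B G.F c.W x ∂G.F.μ = 1 / 4 →
  0 < δ → δ ≤ Cht98.dl0 → Wt G.F G' ψ → (∀ x ∈ Ω, ψ x = δ * K.τ x) → KW B G Ω c ψ G' 2

end defs

end Crest.Agent.X212.Lxd19
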