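import Crest.Agent.X212.Lxd19.Br0
import Crest.Agent.X212.Dfl49.Wk
import Crest.Agent.X212.Num36.Fsj
import Crest.Agent.X212.Add46.Bg
import Crest.Agent.X212.Mp86.C0G
import Crest.Agent.X212.Lix26.Geo
import Crest.Agent.X212.Num99.Defs

/-!
# Row 212, LIX-BRIDGE (helper19): decaying solutions bound the index of the connection
-/

set_option autoImplicit false
set_option linter.unusedSectionVars false
noncomputable section
open scoped Manifold ContDiff Topology InnerProductSpace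
open MeasureTheory Set Function Filter

namespace Crest.Agent.X212.Lxd19
open An Sob92 Nk89 Map77 Wz78 Mod61 Qab60

section fam
variable {E : Type} [NormedAddCommGroup E] [NormedSpace ℝ E] [FiniteDimensional ℝ E]
  [MeasurableSpace E] [BorelSpace E]
  {HM : Type} [TopologicalSpace HM] {I : ModelWithCorners ℝ E HM} [I.Boundaryless]
  {M : Type} [TopologicalSpace M] [ChartedSpace HM M] [IsManifold I ∞ M] [MeasurableSpace M]
  [T2Space M] [BorelSpace M] [SecondCountableTopology M] {ι lam : Type} [Fintype ι] [Fintype lam]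
  {r k n : ℕ} {d : ℤ}

theorem asd_of {B : Base M ι lam} {G : Geo I M ι lam} {m : Md M ι lam} {W : m.Cn} {O : Set M}
    (hB : B.OK I) (hG : G.OK B) (H : m.OK I B) (C : m.IsConn B G W) (o : IsOpen O)
    (i : IntegrableOn (fun z => ‖m.Fg G.F W z‖ ^ 2) O G.F.μ)
    (e : ∫ z in O, ‖m.p2 B z (m.Fg G.F W z)‖ ^ 2 ∂G.F.μ ≤ 0) :
    ∀ z ∈ O, m.p2 B z (m.Fg G.F W z) = 0 := fun z hz => by
  have := openPos G.F.toPre
  have f := (((Std94.sm_p2 hB H).continuous.clm_apply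
    (Mp86.sm_Fg hB hG H C).continuous).norm.pow 2)
  have i1 : IntegrableOn (fun z => ‖m.p2 B z (m.Fg G.F W z)‖ ^ 2) O G.F.μ :=
    i.mono' f.aestronglyMeasurable (.of_forall fun z => by
      rw [Real.norm_of_nonneg (sq_nonneg _)]
      exact pow_le_pow_left₀ (norm_nonneg _) (Mp86.norm_p2 hB m z _) 2)
  simpa using Measure.eqOn_open_of_ae_eq ((integral_eq_zero_iff_of_nonneg (fun _ => sq_nonneg _)
    i1).1 (e.antisymm (integral_nonneg fun _ => sq_nonneg _))) o f.continuousOn continuousOn_const hz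

/-- abelian points are carried along an equivalence (the first half of `Abx52.ab_tr`) -/
theorem ab_tr {B : Base M ι lam} {G : Geo I M ι lam} {Ω : Set M} {c c' : Cfg M ι lam r}
    {ξ : M → c.m.A} {u : M → CL c.m.V c'.m.V} {ζ : Circle} (hB : B.OK I) (hG : G.OK B)
    (A : Ab B G Ω c ξ) (a : c'.Adm B G) (e : Mod61.EqOn B G.F Ω c c' u ζ) :
    ∃ ξ', Ab B G Ω c' ξ' := by
  have o := A.rd.op
  have k := A.rd.toRedOn.iso ((Eqv71.lg_refl hB hG o).of_ceq (Eqv71.ad0 A.adm) (Eqv71.ad0 a) e)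
  have v : ∀ x ∈ Ω, Ω.indicator (fun x => Eqv71.cj (u x) (ξ x)) =ᶠ[𝓝 x]
      fun x => Eqv71.cj (u x) (ξ x) :=
    fun x hx => mem_of_superset (o.mem_nhds hx) fun _ hy => indicator_of_mem hy _
  exact ⟨_, a, ⟨⟨fun x hx => (k.sm x hx).congr_of_eventuallyEq (v x hx),
      fun x hx => (v x hx).eq_of_nhds ▸ k.mem x hx, fun x hx => (v x hx).eq_of_nhds ▸ k.sq x hx,
      fun x hx b => (Wz78.nab_congr b (v x hx)).trans (k.par x hx b)⟩, o,
      fun x hx => indicator_of_notMem hx _⟩,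
    fun x hx => (e.Φ x hx).trans (by simp [A.z x hx, cs])⟩

variable {T : Type} [NormedAddCommGroup T] [NormedSpace ℝ T] {𝔉 : Fam I M ι lam T} {o : Ref 𝔉}
  {y : Pnt o r}

/-- **BRIDGE** for families -/
theorem fam_le (h : 𝔉.OK) (hO : 𝔉.Om' = ∅) {ψ : M → ℝ} (w : Wt (𝔉.G y.t).F 𝔉.F0 ψ)
    (H : Fred93.Fr ((bd o).FF 𝔉.F0.toPre (Fs 𝔉 y.t) k (uy y)) d)
    (hs : Surjective ((bd o).FF 𝔉.F0.toPre (Fs 𝔉 y.t) k (uy y)))
    (kw : KW 𝔉.B (𝔉.G y.t) 𝔉.Om y.cfg ψ (Fs 𝔉 y.t) n) : (n : ℤ) ≤ d := by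
  have Hy := (adj_rem h).hy o y.ht
  have c := cb_uy h y
  obtain ⟨C, t1, t2⟩ := Hy.toTw.good (Hy.nc_full c)
  have cl := Hy.toOK.cliff_full Hy.P (uy y)
  have e := Hy.toTw.chg_LH (k := k) (Hy.nc_full c)
  have H' : Fred93.Fr (((bd o).full (Fs 𝔉 y.t) (uy y)).H (Fs 𝔉 y.t) k) d :=
    (H.conj (Prm93.chg _ _ Hy.cmp).symm (Prm93.chg _ _ Hy.cmp)).congr fun x => by
      obtain ⟨x, rfl⟩ := (Prm93.chg _ _ Hy.cmp).surjective x
      refine (e x).symm.trans ?_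
      simp only [ContinuousLinearMap.comp_apply, ContinuousLinearEquiv.coe_coe,
        ContinuousLinearEquiv.symm_apply_apply]
      rfl
  have s' : Surjective (((bd o).full (Fs 𝔉 y.t) (uy y)).H (Fs 𝔉 y.t) k) := fun v => by
    obtain ⟨v, rfl⟩ := (Prm93.chg _ _ Hy.cmp).surjective v
    obtain ⟨x, rfl⟩ := hs v
    exact ⟨_, (e x).symm⟩
  have e0 : uy y = base y.cfg.W 0 :=
    congrArg _ (funext fun x => y.off h x (hO ▸ notMem_empty x))
  have eb : bd o = ind (bdOf 𝔉.B o.m) 𝔉.Om ∅ := by rw [← hO]; rfl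
  rw [e0, eb] at t2 cl H' s'
  obtain ⟨u, li, hu⟩ := kw
  exact le_of_ker t1 t2 cl H' s' li (fun i => (hu i).1) (fun i => (hu i).2.2.1)
    (fun i => memLp_wt (Dfl49.wt_rem w) (hu i).1 (hu i).2.1) fun i => (hu i).2.2.2

end fam

section job
open M Nd18 Cht98 Rf65 Lix26
variable {Wi : Type} {X : Mf 4} {A κ lam : Type} [Fintype A] [Fintype κ] [Fintype lam]
  [DecidableEq lam] {M : Mark X A κ} {W : World M} {N : ML M lam} {Λ : Lns W N}
  {A' h : Type} [Fintype A'] [DecidableEq A'] [Fintype h] {r n : ℕ}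
  {J : Job Wi Λ A' h r n} {c : M.Cl} {δ : ℝ} {l : A} {π : Reg A}

/-- the weight on a piece with one end -/
theorem wψ_one (hJ : J.OK) (hπ : M.sys.Piece c.1 π) (e : ∀ a b, π a = some b → a = l ∧ b = false)
    (b : Bp J c) (ha : Act J.m c l (some false) (J.Θ b.s)) {x : (W.Z c).M}
    (hx : x ∈ W.pc c π) : wψ (jEnd (W.un c {π}) (W.un c ∅) (fun _ : T0 => b.s) b.br b.O) δ x =
      δ * (J.K c l _ _ ha).τ x := by
  have hP : ∀ ρ ∈ ({π} : Set _), M.sys.Piece c.1 ρ := fun _ k => k ▸ hπ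
  have N := Add46.endIn_P hJ hP (empty_subset _) b
  rw [wψ, Finset.sum_eq_single (⟨l, ha.2.2.2, ha.1⟩, false) (fun i _ k => (N.st i).τ_zero fun k' =>
    disjoint_left.1 ((Add46.jE_ls hJ b hP).off i ?_) k' ((un_one _ c π).ge hx)) (by simp), wEnd_sg]
  · simp only [pm, Bool.false_eq_true, if_false, neg_neg, one_mul]
    rfl
  · rintro ⟨⟨j, _, rfl, h2⟩, rfl⟩
    exact k (Prod.ext (Subtype.ext (e _ _ h2).1) (e _ _ h2).2)

/-- **BRIDGE** for jobs -/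
theorem two (hk : KerStmt (W.Z c).I (W.Z c).M (J.xs l).D)
    (hJ : J.OK) (h0 : 0 < δ) (h1 : δ ≤ dl0) (hπ : M.sys.Piece c.1 π)
    (e : ∀ a b, π a = some b → a = l ∧ b = false) {z : J.Obc c} (g : Go δ z {π})
    (ha : Act J.m c l (some false) (J.Θ z.s)) (d : Mdl (J.K c l _ _ ha) (W.pc c π)) (hd : d.OK)
    {ξ} (A : Ab (J.B c) (J.G c z.s) (W.pc c π) z.x ξ) (ea : EA 0 z π)
    (lv : z.kap (W.pc c π) = 1 / 4) {k : ℤ} (H : Ix δ z {π} ∅ k) : 2 ≤ k := by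
  obtain ⟨⟨_, br, O⟩, o, _, x, rfl, -, -, -, ⟨u, ζ, rp⟩, H⟩ := H
  have hP : ∀ ρ ∈ ({π} : Set _), M.sys.Piece c.1 ρ := fun _ k => k ▸ hπ
  let X := (Add46.endIn_P hJ hP (empty_subset _) ⟨z.s, br, O⟩).ends h0 h1
  have hK := hJ.nk c l _ _ ha
  have i := g.int
  have I := hd.ins
  have w := fun x => wψ_one (δ := δ) hJ hπ e ⟨z.s, br, O⟩ ha (x := x)
  have a := asd_of I.hB I.hG A.adm.ok A.adm.conn I.cl.2 ea.int (by simpa using ea.le)
  have A' : Ab (J.B c) (J.G c z.s) (W.pc c π) z.x.con ξ :=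
    ⟨⟨A.adm.ok, A.adm.conn, contMDiff_const, fun _ => map_zero _, .inl rfl⟩, A.rd, fun _ _ => rfl⟩
  rw [Job.Obc.kap] at lv
  have p := fun x hx => hd.mo.posW (y := x) hx
  revert d
  rw [← un_one] at A' a w lv p ⊢
  intro d hd I
  have b : Eqv71.Ad0 x.cfg (J.B c) (J.G c z.s) := x.ad0 X.ok
  have L := Eqv71.lg_refl I.hB I.hG I.cl.2
  have kd : EqOn (x.cfg.m.kd (J.B c) (J.G c z.s).F x.cfg.W) z.kd (W.un c {π}) := fun y hy =>
    (L.of_ceq (Eqv71.ad0 A'.adm) b rp).kd hy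
  have as : ∀ y ∈ W.un c {π}, o.m.p2 (J.B c) y (o.m.Fg (J.G c z.s).F x.cfg.W y) = 0 := fun y hy =>
    (Eqv71.ceq_p2F L (Eqv71.ad0 A'.adm) b rp hy).trans ((congrArg _ (a y hy)).trans (map_zero _))
  obtain ⟨ξ', A''⟩ := ab_tr I.hB I.hG A' ⟨b.ok, b.conn, b.sm, b.pos, .inl rfl⟩ rp
  obtain ⟨v⟩ := (J.conn_xs l).toNonempty
  have m : (v, 6) ∈ (J.K c l _ _ ha).ψ.source :=
    (J.K c l _ _ ha).mem_src.2 (I.one.J (show (0 : ℝ) < 1 * 6 by norm_num))
  have t := (J.K c l _ _ ha).tm_ψ _ m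
  exact fam_le (n := 2) X.ok (biUnion_empty _) X.wt (Nat27.idx_ff X.ok (by norm_num) H)
    (Num36.fam_surj X (biUnion_empty _) (by norm_num) x (fun y hy => ⟨(⟨l, ha.2.2.2, ha.1⟩, false), _,
      ⟨(J.K c l _ _ ha).ψ.map_source m, (show (5 : ℝ) < 1 * 6 by norm_num).trans_eq
        (congrArg _ t.symm)⟩, I.sc.1.subset_connectedComponent hy (I.one.sub
        ((show (0 : ℝ) < 1 * 6 by norm_num).trans_eq (congrArg _ t.symm)))⟩) p as)
    (hk _ _ _ _ d x.cfg ξ' δ _ _ hd hK.lo hK.hi A'' as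
      ((integrableOn_congr_fun kd I.cl.2.measurableSet).2 i)
      ((setIntegral_congr_fun I.cl.2.measurableSet kd).trans lv) h0 h1 (Dfl49.wt_rem X.wt) w)

end job

section scene
open M Nd18 Cht98 Rf65 Lix26 G75 Num99
variable {κ lam : Type} [Fintype κ] [Fintype lam] [DecidableEq lam] {Lm : LM κ lam}

/-- **CLAUSE QA** from KER, GEO2 and the existence of the index -/
theorem qa (hk : ∀ (Z : Mf 4) (Y : Mf 3) [CompactSpace Y.M] (D : YD Y.I Y.M κ (lam ⊕ lam)),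
      KerStmt Z.I Z.M D) (g2 : Geo2Stmt Lm)
    (ex : AllL Lm fun J c δ l => ∀ z : J.Obc c, Go δ z {hp l false} →
      Ix δ z {hp l false} ∅ (ia δ z (hp l false))) : QaS Lm :=
  fun S D i Wi A' h _ _ _ r n J c l ok hJ hm hl nl py cv =>
  let ⟨u, u0, hu⟩ := ex S D i Wi A' h r n J c l ok hJ hm hl nl py cv
  ⟨min u dl0, lt_min u0 dl0_pos, fun δ hδ z g ξ A ea lv => by
    have ha : Act J.m c l.1 (some false) (J.Θ z.s) := ⟨ok.lsp l l.2, g.br, g.O, hl⟩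
    have k := g2 S D i l J.m c _ Wi (J.xs l) (J.g l) _ ok ha (hJ.xs l).1 (hJ.nk c l _ _ ha)
    rw [← pc_eq ok D l hl] at k
    obtain ⟨d, hd, -⟩ := k
    exact two (hk _ _ _) hJ hδ.1 (hδ.2.trans (min_le_right _ _)) (piece ok l hl)
      (fun _ _ k => (Kl48.hp_eq.1 k).imp_right Eq.symm) g ha d hd A ea lv
      (hu δ ⟨hδ.1, hδ.2.trans (min_le_left _ _)⟩ z g)⟩

end scene

end Crest.Agent.X212.Lxd19
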