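import Crest.Agent.X212.Lxd19.Br
import Crest.Agent.X212.Add46.Dif
import Crest.Agent.X212.Num36.Cka

/-!
# Row 212, LIX-NUM (helper19): the clause `QaS` from the leaf KER
-/

set_option autoImplicit false
set_option linter.unusedSectionVars false
noncomputable section
open Set Function Filter

namespace Crest.Agent.X212.Lxd19
open An Nd18 M Rf65 G75 Lix26 Cht98 Num99

variable {κ lam : Type} [Fintype κ] [Fintype lam] [DecidableEq lam] {Lm : LM κ lam}

theorem exL (L : IxL κ (lam ⊕ lam) 8) : AllL Lm fun J c δ l => ∀ z : J.Obc c, Go δ z {hp l false} →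
    Ix δ z {hp l false} ∅ (ia δ z (hp l false)) :=
  fun _ D i _ _ _ _ _ _ _ _ _ _ l hS hJ hm hl hN py _ =>
  (Add46.loc L D.nrm (D.lnrm i) hJ hm ⟨hl, hS.lsp l l.2⟩ (piece hS l hl) hN.1 ⟨0, py⟩).imp
    fun _ => .imp_right fun T δ k z g => ((T δ k).ex z g).1

/-- **CLAUSE QA** -/
theorem qaS (hk : ∀ (Z : Mf 4) (Y : Mf 3) [CompactSpace Y.M] (D : YD Y.I Y.M κ (lam ⊕ lam)),
    KerStmt Z.I Z.M D) (geo : Geo2Stmt Lm) (L : IxL κ (lam ⊕ lam) 8) : QaS Lm :=
  qa hk geo (exL L)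

/-- **CLAUSE FA** -/
theorem faS (H : Lns95.LH Lm) (L : IxL κ (lam ⊕ lam) 8) : FaS Lm := Num36.faS H (exL L)

end Crest.Agent.X212.Lxd19
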